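import Mathlib

/-!
Definitions for P314: noncommutative formulas, the polynomial a formula computes,
matrix hitting sets, and an explicit family of 0/1 matrix tuples.
-/

namespace Vale.Agent.Lib.P314

/-- Noncommutative formulas over `F` in the variables `x_0, ..., x_{n-1}`: rooted binary trees
whose leaves are variables or scalars and whose inner vertices are ordered additions and
multiplications. -/
inductive NCFormula (F : Type*) (n : ℕ) : Type _
  | var : Fin n → NCFormula F n
  | const : F → NCFormula F n
  | add : NCFormula F n → NCFormula F n → NCFormula F n
  | mul : NCFormula F n → NCFormula F n → NCFormula F n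

namespace NCFormula

variable {F : Type*} {n : ℕ}

/-- The size of a formula: the total number of vertices, leaves included. -/
def size : NCFormula F n → ℕ
  | var _ => 1
  | const _ => 1
  | add a b => a.size + b.size + 1
  | mul a b => a.size + b.size + 1

/-- The number of monomials (with repetition) in the formal expansion of a formula. -/
def terms : NCFormula F n → ℕ
  | var _ => 1
  | const _ => 1
  | add a b => a.terms + b.terms
  | mul a b => a.terms * b.terms

/-- The polynomial in the free associative algebra computed by a formula. -/
noncomputable def poly [Field F] : NCFormula F n → FreeAlgebra F (Fin n)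
  | var i => FreeAlgebra.ι F i
  | const c => algebraMap F (FreeAlgebra F (Fin n)) c
  | add a b => a.poly + b.poly
  | mul a b => a.poly * b.poly

/-- `ProdOfSparse t a`: the formula `a` is built by multiplication gates alone from subformulas
each of which has at most `t` monomials in its formal expansion. -/
inductive ProdOfSparse (t : ℕ) : NCFormula F n → Prop
  | sparse (a : NCFormula F n) : a.terms ≤ t → ProdOfSparse t a
  | mul (a b : NCFormula F n) : ProdOfSparse t a → ProdOfSparse t b → ProdOfSparse t (mul a b)

end NCFormula

/-- A tuple of `n` square matrices over `F`, together with its dimension. -/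
abbrev MatTuple (F : Type*) (n : ℕ) : Type _ := Σ d : ℕ, Fin n → Matrix (Fin d) (Fin d) F

/-- `H` is a hitting set for the class `C` of polynomials: every nonzero member of `C` has a
nonzero ordered matrix evaluation at some tuple of `H`. -/
def IsHittingSet {F : Type*} [Field F] {n : ℕ} (H : List (MatTuple F n))
    (C : Set (FreeAlgebra F (Fin n))) : Prop :=
  ∀ f ∈ C, f ≠ 0 → ∃ T ∈ H, FreeAlgebra.lift F T.2 f ≠ 0

/-- The 0/1 matrix of the letter `i`, with rows and columns indexed by pairs
(position, weight): from `(p, e)` one moves to `(p + 1, e + (i * (n + 2) ^ p mod r))`. -/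
def stepMat (F : Type*) [Field F] (n D M r : ℕ) (i : Fin n) :
    Matrix (Fin (D + 1) × Fin M) (Fin (D + 1) × Fin M) F :=
  fun a b => if b.1.val = a.1.val + 1 ∧ b.2.val = a.2.val + (i.val * (n + 2) ^ a.1.val) % r
    then 1 else 0

/-- The tuple with modulus `r`, for formulas of size at most `s`: the matrices `stepMat` with
`s + 1` positions and `s * r + 1` weights, reindexed by `Fin ((s + 1) * (s * r + 1))`. -/
def tuple (F : Type*) [Field F] (n s r : ℕ) : MatTuple F n :=
  ⟨(s + 1) * (s * r + 1), fun i =>
    Matrix.reindex finProdFinEquiv finProdFinEquiv (stepMat F n s (s * r + 1) r i)⟩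

/-- The number of moduli that are used. -/
def numModuli (n s t : ℕ) : ℕ := 2 * ((n + 2) * (s * (1 + t * t * s)))

/-- The explicit family: the tuples with moduli `r = 1, ..., numModuli n s t`. -/
def family (F : Type*) [Field F] (n s t : ℕ) : List (MatTuple F n) :=
  (List.range (numModuli n s t)).map fun j => tuple F n s (j + 1)

end Vale.Agent.Lib.P314
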