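import Mathlib
import Vale.Agent.Lib.P314.Defs

/-!
Proof that the explicit family of `Defs` hits every nonzero product of sparse formulas.
-/

namespace Vale.Agent.Lib.P314

open Polynomial



/-- weight of a word (list of digit codes) read from position `o` on -/
def wt (B r : ℕ) : ℕ → List ℕ → ℕ
  | _, [] => 0
  | o, i :: w => (i * B ^ o) % r + wt B r (o + 1) w

theorem wt_append (B r : ℕ) (u v : List ℕ) (o : ℕ) :
    wt B r o (u ++ v) = wt B r o u + wt B r (o + u.length) v := by
  induction u generalizing o with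
  | nil => simp [wt]
  | cons i u ih =>
    simp only [List.cons_append, wt, ih, List.length_cons]
    rw [show o + 1 + u.length = o + (u.length + 1) by ring]
    ring

theorem wt_modEq (B r : ℕ) (w : List ℕ) (o : ℕ) :
    wt B r o w ≡ B ^ o * Nat.ofDigits B w [MOD r] := by
  induction w generalizing o with
  | nil => simp [wt, Nat.ModEq]
  | cons i w ih =>
    simp only [wt, Nat.ofDigits_cons]
    have h1 : (i * B ^ o) % r ≡ i * B ^ o [MOD r] := Nat.mod_modEq _ _
    have h2 := ih (o + 1)
    have h3 : B ^ o * (i + B * Nat.ofDigits B w) = i * B ^ o + B ^ (o + 1) * Nat.ofDigits B w := by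
      ring
    rw [h3]
    exact Nat.ModEq.add h1 h2

theorem wt_le (B r : ℕ) (hr : 0 < r) (w : List ℕ) (o : ℕ) :
    wt B r o w ≤ w.length * r := by
  induction w generalizing o with
  | nil => simp [wt]
  | cons i w ih =>
    simp only [wt, List.length_cons]
    have h1 : (i * B ^ o) % r < r := Nat.mod_lt _ hr
    have h2 := ih (o + 1)
    nlinarith

variable {F : Type*} [Field F] {n : ℕ}

/-- digit codes of a word -/
def code (w : FreeMonoid (Fin n)) : List ℕ := (FreeMonoid.toList w).map Fin.val

theorem code_mul (u v : FreeMonoid (Fin n)) : code (u * v) = code u ++ code v := by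
  simp [code]

theorem code_length (u : FreeMonoid (Fin n)) : (code u).length = u.length := by
  simp [code, FreeMonoid.length]

theorem code_lt (u : FreeMonoid (Fin n)) : ∀ x ∈ code u, x < n + 2 := by
  intro x hx
  simp only [code, List.mem_map] at hx
  obtain ⟨i, _, rfl⟩ := hx
  have := i.isLt
  omega

theorem code_injective : Function.Injective (code : FreeMonoid (Fin n) → List ℕ) := by
  intro u v h
  have := List.map_injective_iff.2 (Fin.val_injective (n := n)) h
  exact FreeMonoid.toList.injective this

theorem evalWord (D M r : ℕ) (w : FreeMonoid (Fin n)) (a b : Fin (D + 1) × Fin M) :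
    FreeMonoid.lift (stepMat F n D M r) w a b =
      if b.1.val = a.1.val + w.length ∧ b.2.val = a.2.val + wt (n + 2) r a.1.val (code w)
      then 1 else 0 := by
  induction w using FreeMonoid.inductionOn' generalizing a with
  | one =>
    simp only [map_one, Matrix.one_apply, FreeMonoid.length_one, add_zero, code,
      FreeMonoid.toList_one, List.map_nil, wt]
    congr 1
    apply propext
    constructor
    · rintro rfl; exact ⟨rfl, rfl⟩
    · rintro ⟨h1, h2⟩
      exact Prod.ext (Fin.ext h1.symm) (Fin.ext h2.symm)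
  | of_mul x xs ih =>
    rw [map_mul, FreeMonoid.lift_eval_of, Matrix.mul_apply]
    simp only [ih]
    have hcode : code (FreeMonoid.of x * xs) = x.val :: code xs := by
      simp [code]
    rw [hcode, FreeMonoid.length_mul, FreeMonoid.length_of]
    simp only [wt]
    by_cases hrange : a.1.val + 1 < D + 1 ∧ a.2.val + (x.val * (n + 2) ^ a.1.val) % r < M
    · obtain ⟨h1, h2⟩ := hrange
      rw [Finset.sum_eq_single (⟨⟨a.1.val + 1, h1⟩, ⟨a.2.val + (x.val * (n + 2) ^ a.1.val) % r, h2⟩⟩ :
        Fin (D + 1) × Fin M)]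
      · simp only [stepMat, and_self, if_true, one_mul]
        congr 1
        apply propext
        constructor
        · rintro ⟨h3, h4⟩; constructor <;> omega
        · rintro ⟨h3, h4⟩; constructor <;> omega
      · intro c _ hc
        have : stepMat F n D M r x a c = 0 := by
          simp only [stepMat]
          rw [if_neg]
          rintro ⟨h3, h4⟩
          exact hc (Prod.ext (Fin.ext h3) (Fin.ext h4))
        rw [this, zero_mul]
      · intro h; exact absurd (Finset.mem_univ _) h
    · rw [Finset.sum_eq_zero]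
      · symm
        apply if_neg
        rintro ⟨h3, h4⟩
        apply hrange
        have := b.1.isLt
        have := b.2.isLt
        constructor <;> omega
      · intro c _
        have : stepMat F n D M r x a c = 0 := by
          simp only [stepMat]
          rw [if_neg]
          rintro ⟨h3, h4⟩
          apply hrange
          have := c.1.isLt
          have := c.2.isLt
          constructor <;> omega
        rw [this, zero_mul]




/-- contribution of one word -/
noncomputable def Gw (r o k : ℕ) (w : FreeMonoid (Fin n)) : F →+ F[X] :=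
  if w.length = k then (Polynomial.monomial (wt (n + 2) r o (code w))).toAddMonoidHom else 0

/-- generating polynomial of the length `k` part, read from position `o` -/
noncomputable def G (r o k : ℕ) : MonoidAlgebra F (FreeMonoid (Fin n)) →+ F[X] :=
  (Finsupp.liftAddHom (Gw r o k)).comp MonoidAlgebra.coeffAddEquiv.toAddMonoidHom

theorem G_apply (r o k : ℕ) (a : MonoidAlgebra F (FreeMonoid (Fin n))) :
    G r o k a = a.coeff.sum (fun w c => Gw r o k w c) := rfl

theorem G_single (r o k : ℕ) (w : FreeMonoid (Fin n)) (c : F) :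
    G r o k (MonoidAlgebra.single w c) = Gw r o k w c := by
  rw [G_apply]
  simp

theorem Gw_mul (r o k l : ℕ) (u v : FreeMonoid (Fin n)) (c d : F) (hu : u.length ≤ k)
    (hv : v.length ≤ l) :
    Gw r o (k + l) (u * v) (c * d) = Gw r o k u c * Gw r (o + k) l v d := by
  unfold Gw
  by_cases h1 : u.length = k
  · by_cases h2 : v.length = l
    · rw [if_pos h1, if_pos h2, if_pos (by rw [FreeMonoid.length_mul, h1, h2])]
      simp only [LinearMap.toAddMonoidHom_coe, Polynomial.monomial_mul_monomial]
      rw [code_mul, wt_append, code_length, h1]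
    · rw [if_neg h2, if_neg (by rw [FreeMonoid.length_mul]; omega)]
      simp
  · rw [if_neg h1, if_neg (by rw [FreeMonoid.length_mul]; omega)]
    simp

theorem G_mul (r o k l : ℕ) (a b : MonoidAlgebra F (FreeMonoid (Fin n)))
    (ha : ∀ w ∈ a.coeff.support, w.length ≤ k) (hb : ∀ w ∈ b.coeff.support, w.length ≤ l) :
    G r o (k + l) (a * b) = G r o k a * G r (o + k) l b := by
  rw [MonoidAlgebra.mul_def, map_finsuppSum, G_apply, G_apply, Finsupp.sum_mul]
  apply Finsupp.sum_congr
  intro u hu
  rw [map_finsuppSum, Finsupp.mul_sum]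
  apply Finsupp.sum_congr
  intro v hv
  rw [G_single]
  exact Gw_mul r o k l u v _ _ (ha u hu) (hb v hv)

theorem G_coeff (r o k e : ℕ) (a : MonoidAlgebra F (FreeMonoid (Fin n))) :
    (G r o k a).coeff e = ∑ w ∈ a.coeff.support,
      if w.length = k ∧ wt (n + 2) r o (code w) = e then a.coeff w else 0 := by
  rw [G_apply, Finsupp.sum, Polynomial.finsetSum_coeff]
  apply Finset.sum_congr rfl
  intro w _
  unfold Gw
  by_cases h1 : w.length = k
  · rw [if_pos h1]
    simp only [LinearMap.toAddMonoidHom_coe, Polynomial.coeff_monomial, h1, true_and]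
  · rw [if_neg h1]
    simp [h1]

namespace NCFormula

theorem size_pos (a : NCFormula F n) : 0 < a.size := by
  cases a <;> simp [size]


noncomputable def toMA (a : NCFormula F n) : MonoidAlgebra F (FreeMonoid (Fin n)) :=
  FreeAlgebra.equivMonoidAlgebraFreeMonoid a.poly

theorem toMA_var (i : Fin n) : (var i : NCFormula F n).toMA = MonoidAlgebra.single (FreeMonoid.of i) 1 := by
  simp [toMA, poly, FreeAlgebra.equivMonoidAlgebraFreeMonoid, MonoidAlgebra.of]

theorem toMA_const (c : F) : (const c : NCFormula F n).toMA = MonoidAlgebra.single 1 c := by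
  simp [toMA, poly]

theorem toMA_add (a b : NCFormula F n) : (add a b).toMA = a.toMA + b.toMA := by
  simp [toMA, poly]

theorem toMA_mul (a b : NCFormula F n) : (mul a b).toMA = a.toMA * b.toMA := by
  simp [toMA, poly]

theorem card_support_le (a : NCFormula F n) : a.toMA.coeff.support.card ≤ a.terms := by
  classical
  induction a with
  | var i =>
    rw [toMA_var]
    exact (Finset.card_le_card Finsupp.support_single_subset).trans (by simp [terms])
  | const c =>
    rw [toMA_const]
    exact (Finset.card_le_card Finsupp.support_single_subset).trans (by simp [terms])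
  | add a b iha ihb =>
    rw [toMA_add, MonoidAlgebra.coeff_add]
    refine (Finset.card_le_card Finsupp.support_add).trans ?_
    refine (Finset.card_union_le _ _).trans ?_
    simp only [terms]
    omega
  | mul a b iha ihb =>
    rw [toMA_mul]
    refine (Finset.card_le_card (MonoidAlgebra.support_coeff_mul_subset _ _)).trans ?_
    refine (Finset.card_mul_le).trans ?_
    simp only [terms]
    exact Nat.mul_le_mul iha ihb

theorem length_le (a : NCFormula F n) : ∀ w ∈ a.toMA.coeff.support, w.length ≤ a.size := by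
  classical
  induction a with
  | var i =>
    intro w hw
    rw [toMA_var] at hw
    have := Finsupp.support_single_subset hw
    simp only [Finset.mem_singleton] at this
    subst this
    simp [size]
  | const c =>
    intro w hw
    rw [toMA_const] at hw
    have := Finsupp.support_single_subset hw
    simp only [Finset.mem_singleton] at this
    subst this
    simp [size]
  | add a b iha ihb =>
    intro w hw
    rw [toMA_add, MonoidAlgebra.coeff_add] at hw
    have := Finsupp.support_add hw
    simp only [size]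
    rcases Finset.mem_union.1 this with h | h
    · have := iha w h; omega
    · have := ihb w h; omega
  | mul a b iha ihb =>
    intro w hw
    rw [toMA_mul] at hw
    have := MonoidAlgebra.support_coeff_mul_subset _ _ hw
    obtain ⟨u, hu, v, hv, rfl⟩ := Finset.mem_mul.1 this
    simp only [size, FreeMonoid.length_mul]
    have := iha u hu
    have := ihb v hv
    omega

end NCFormula



/-- numeric value of a word -/
def num (w : FreeMonoid (Fin n)) : ℕ := Nat.ofDigits (n + 2) (code w)

theorem num_lt (w : FreeMonoid (Fin n)) : num w < (n + 2) ^ w.length := by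
  have := Nat.ofDigits_lt_base_pow_length (b := n + 2) (l := code w) (by omega) (code_lt w)
  rwa [code_length] at this

theorem num_ne {u v : FreeMonoid (Fin n)} (hlen : u.length = v.length) (hne : u ≠ v) :
    num u ≠ num v := by
  intro h
  apply hne
  apply code_injective
  exact Nat.ofDigits_inj_of_len_eq (b := n + 2) (by omega)
    (by rw [code_length, code_length, hlen]) (code_lt u) (code_lt v) h

/-- product of all positive differences of numeric values of words in the support -/
noncomputable def Delta (a : MonoidAlgebra F (FreeMonoid (Fin n))) : ℕ :=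
  ∏ p ∈ (a.coeff.support ×ˢ a.coeff.support).filter (fun p => num p.2 < num p.1),
    (num p.1 - num p.2)

theorem Delta_ne_zero (a : MonoidAlgebra F (FreeMonoid (Fin n))) : Delta a ≠ 0 := by
  unfold Delta
  rw [Finset.prod_ne_zero_iff]
  intro p hp
  have := (Finset.mem_filter.1 hp).2
  omega

theorem Delta_le (a : MonoidAlgebra F (FreeMonoid (Fin n))) (D t : ℕ)
    (hlen : ∀ w ∈ a.coeff.support, w.length ≤ D) (hcard : a.coeff.support.card ≤ t) :
    Delta a ≤ ((n + 2) ^ D) ^ (t * t) := by
  unfold Delta
  refine (Finset.prod_le_pow_card _ _ ((n + 2) ^ D) ?_).trans ?_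
  · intro p hp
    have hp1 := (Finset.mem_product.1 (Finset.mem_filter.1 hp).1).1
    have h1 := num_lt p.1
    have h2 : (n + 2) ^ p.1.length ≤ (n + 2) ^ D := Nat.pow_le_pow_right (by omega) (hlen _ hp1)
    omega
  · apply Nat.pow_le_pow_right (Nat.one_le_pow _ _ (by omega))
    refine (Finset.card_filter_le _ _).trans ?_
    rw [Finset.card_product]
    exact Nat.mul_le_mul hcard hcard

theorem sep_aux (a : MonoidAlgebra F (FreeMonoid (Fin n))) (D r o : ℕ) (ho : o ≤ D)
    {u v : FreeMonoid (Fin n)} (hu : u ∈ a.coeff.support) (hv : v ∈ a.coeff.support)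
    (hlt : num v < num u)
    (hwt : wt (n + 2) r o (code u) = wt (n + 2) r o (code v)) :
    r ∣ (n + 2) ^ D * Delta a := by
  have h1 : (n + 2) ^ o * num v ≡ (n + 2) ^ o * num u [MOD r] := by
    have e1 := wt_modEq (n + 2) r (code u) o
    have e2 := wt_modEq (n + 2) r (code v) o
    rw [hwt] at e1
    exact e2.symm.trans e1
  have h2 : r ∣ (n + 2) ^ o * num u - (n + 2) ^ o * num v :=
    (Nat.modEq_iff_dvd' (Nat.mul_le_mul_left _ hlt.le)).1 h1
  rw [← Nat.mul_sub] at h2
  refine h2.trans (mul_dvd_mul (pow_dvd_pow _ ho) ?_)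
  unfold Delta
  have hmem : (u, v) ∈ (a.coeff.support ×ˢ a.coeff.support).filter (fun p => num p.2 < num p.1) :=
    Finset.mem_filter.2 ⟨Finset.mem_product.2 ⟨hu, hv⟩, hlt⟩
  exact Finset.dvd_prod_of_mem (fun p : FreeMonoid (Fin n) × FreeMonoid (Fin n) => num p.1 - num p.2)
    hmem

theorem sep (a : MonoidAlgebra F (FreeMonoid (Fin n))) (D r o : ℕ) (ho : o ≤ D)
    {u v : FreeMonoid (Fin n)} (hu : u ∈ a.coeff.support) (hv : v ∈ a.coeff.support)
    (hlen : u.length = v.length) (hne : u ≠ v)
    (hwt : wt (n + 2) r o (code u) = wt (n + 2) r o (code v)) :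
    r ∣ (n + 2) ^ D * Delta a := by
  rcases lt_or_gt_of_ne (num_ne hlen hne) with h | h
  · exact sep_aux a D r o ho hv hu h hwt.symm
  · exact sep_aux a D r o ho hu hv h hwt

theorem base_case (a : MonoidAlgebra F (FreeMonoid (Fin n))) (ha : a ≠ 0) (D r : ℕ)
    (hr : ¬ r ∣ (n + 2) ^ D * Delta a) :
    ∃ k, (∃ w ∈ a.coeff.support, w.length = k) ∧ (∀ w ∈ a.coeff.support, w.length ≤ k) ∧
      ∀ o, o ≤ D → G r o k a ≠ 0 := by
  have hne : a.coeff.support.Nonempty := by
    rw [Finsupp.support_nonempty_iff]
    simpa using ha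
  obtain ⟨w0, hw0, hmax⟩ := Finset.exists_max_image a.coeff.support FreeMonoid.length hne
  refine ⟨w0.length, ⟨w0, hw0, rfl⟩, hmax, ?_⟩
  intro o ho hG
  have hc := G_coeff r o w0.length (wt (n + 2) r o (code w0)) a
  rw [hG, Polynomial.coeff_zero, Finset.sum_eq_single w0] at hc
  · simp only [and_self, if_true] at hc
    exact (Finsupp.mem_support_iff.1 hw0) hc.symm
  · intro w hw hww
    apply if_neg
    rintro ⟨h1, h2⟩
    exact hr (sep a D r o ho hw hw0 h1 hww h2)
  · intro h; exact absurd hw0 h


open NCFormula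


theorem main_induction (t D : ℕ) (φ : NCFormula F n) (h : φ.ProdOfSparse t)
    (hne : φ.toMA ≠ 0) (hs : φ.size ≤ D) :
    ∃ Δ : ℕ, Δ ≠ 0 ∧ Δ ≤ ((n + 2) ^ D) ^ (t * t * φ.size) ∧ ∀ r, ¬ r ∣ (n + 2) ^ D * Δ →
      ∃ k, k ≤ φ.size ∧ (∀ w ∈ φ.toMA.coeff.support, w.length ≤ k) ∧
        ∀ o, o + k ≤ D → G r o k φ.toMA ≠ 0 := by
  classical
  have hB : 1 ≤ (n + 2) ^ D := Nat.one_le_pow _ _ (by omega)
  induction h with
  | sparse a hterms =>
    refine ⟨Delta a.toMA, Delta_ne_zero _, ?_, ?_⟩
    · refine (Delta_le a.toMA D t (fun w hw => (length_le a w hw).trans hs)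
        ((card_support_le a).trans hterms)).trans ?_
      apply Nat.pow_le_pow_right hB
      exact Nat.le_mul_of_pos_right _ (size_pos a)
    · intro r hr
      obtain ⟨k, ⟨w, hw, hwk⟩, hmax, hG⟩ := base_case a.toMA hne D r hr
      refine ⟨k, ?_, hmax, fun o ho => hG o (by omega)⟩
      rw [← hwk]
      exact length_le a w hw
  | mul a b _ _ iha ihb =>
    rw [toMA_mul] at hne
    have hna : a.toMA ≠ 0 := left_ne_zero_of_mul hne
    have hnb : b.toMA ≠ 0 := right_ne_zero_of_mul hne
    simp only [size] at hs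
    obtain ⟨Δa, hΔa, hla, Ha⟩ := iha hna (by omega)
    obtain ⟨Δb, hΔb, hlb, Hb⟩ := ihb hnb (by omega)
    refine ⟨Δa * Δb, mul_ne_zero hΔa hΔb, ?_, ?_⟩
    · refine (Nat.mul_le_mul hla hlb).trans ?_
      rw [← pow_add]
      apply Nat.pow_le_pow_right hB
      simp only [size]
      nlinarith
    · intro r hr
      obtain ⟨ka, hka, hsa, hGa⟩ := Ha r (fun hd => hr (hd.trans ⟨Δb, by ring⟩))
      obtain ⟨kb, hkb, hsb, hGb⟩ := Hb r (fun hd => hr (hd.trans ⟨Δa, by ring⟩))
      refine ⟨ka + kb, by simp only [size]; omega, ?_, ?_⟩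
      · intro w hw
        rw [toMA_mul] at hw
        have := MonoidAlgebra.support_coeff_mul_subset _ _ hw
        obtain ⟨u, hu, v, hv, rfl⟩ := Finset.mem_mul.1 this
        rw [FreeMonoid.length_mul]
        have := hsa u hu
        have := hsb v hv
        omega
      · intro o ho
        rw [toMA_mul, G_mul r o ka kb _ _ hsa hsb]
        exact mul_ne_zero (hGa o (by omega)) (hGb (o + ka) (by omega))

theorem lift_eq (A : Type*) [Ring A] [Algebra F A] (T : Fin n → A) (f : FreeAlgebra F (Fin n)) :
    FreeAlgebra.lift F T f =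
      MonoidAlgebra.lift F A (FreeMonoid (Fin n)) (FreeMonoid.lift T)
        (FreeAlgebra.equivMonoidAlgebraFreeMonoid f) := by
  have : FreeAlgebra.lift F T =
      (MonoidAlgebra.lift F A (FreeMonoid (Fin n)) (FreeMonoid.lift T)).comp
        (FreeAlgebra.equivMonoidAlgebraFreeMonoid (R := F) (X := Fin n)).toAlgHom := by
    ext i
    simp [FreeAlgebra.equivMonoidAlgebraFreeMonoid]
  rw [this]
  rfl

theorem entry_eq (D M r k e : ℕ) (hk : k < D + 1) (he : e < M) (hM : 0 < M)
    (a : MonoidAlgebra F (FreeMonoid (Fin n))) :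
    MonoidAlgebra.lift F _ (FreeMonoid (Fin n)) (FreeMonoid.lift (stepMat F n D M r)) a
      (⟨0, by omega⟩, ⟨0, hM⟩) (⟨k, hk⟩, ⟨e, he⟩) = (G r 0 k a).coeff e := by
  rw [MonoidAlgebra.lift_apply, G_coeff, Finsupp.sum, Matrix.sum_apply]
  apply Finset.sum_congr rfl
  intro w _
  rw [Matrix.smul_apply, evalWord]
  simp only [zero_add, smul_eq_mul, mul_ite, mul_one, mul_zero]
  congr 1
  apply propext
  constructor
  · rintro ⟨h1, h2⟩; exact ⟨h1.symm, h2.symm⟩
  · rintro ⟨h1, h2⟩; exact ⟨h1.symm, h2.symm⟩

theorem hit_of_G (D r k : ℕ) (hr : 0 < r) (hk : k ≤ D)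
    (a : MonoidAlgebra F (FreeMonoid (Fin n))) (hG : G r 0 k a ≠ 0) :
    MonoidAlgebra.lift F _ (FreeMonoid (Fin n))
      (FreeMonoid.lift (stepMat F n D (D * r + 1) r)) a ≠ 0 := by
  obtain ⟨e, he⟩ : ∃ e, (G r 0 k a).coeff e ≠ 0 := by
    by_contra hcon
    push Not at hcon
    exact hG (Polynomial.ext (by simpa using hcon))
  have hlt : e < D * r + 1 := by
    rw [G_coeff] at he
    obtain ⟨w, _, hw⟩ := Finset.exists_ne_zero_of_sum_ne_zero he
    have hcond : w.length = k ∧ wt (n + 2) r 0 (code w) = e := by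
      by_contra hc
      exact hw (if_neg hc)
    have h1 := wt_le (n + 2) r hr (code w) 0
    rw [code_length, hcond.1, hcond.2] at h1
    have : k * r ≤ D * r := Nat.mul_le_mul_right _ hk
    omega
  intro hzero
  have := entry_eq D (D * r + 1) r k e (by omega) hlt (by omega) a
  rw [hzero] at this
  exact he (by simpa using this.symm)




theorem exists_not_dvd (Δ m : ℕ) (hΔ : Δ ≠ 0) (h : Δ < Nat.centralBinom m) :
    ∃ r, 1 ≤ r ∧ r ≤ 2 * m ∧ ¬ r ∣ Δ := by
  by_contra hcon
  push Not at hcon
  have hm : 0 < m := by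
    rcases Nat.eq_zero_or_pos m with rfl | hm
    · simp at h; omega
    · exact hm
  have hdvd : Nat.centralBinom m ∣ Δ := by
    rw [← Nat.factorization_le_iff_dvd (Nat.centralBinom_ne_zero m) hΔ]
    intro p
    by_cases hp : p.Prime
    · have h1 : p ^ (Nat.centralBinom m).factorization p ≤ 2 * m := by
        rw [Nat.centralBinom_eq_two_mul_choose]
        exact Nat.pow_factorization_choose_le (by omega)
      have h2 : p ^ (Nat.centralBinom m).factorization p ∣ Δ :=
        hcon _ (Nat.one_le_pow _ _ hp.pos) h1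
      exact (hp.pow_dvd_iff_le_factorization hΔ).1 h2
    · simp [Nat.factorization_eq_zero_of_not_prime _ hp]
  exact absurd (Nat.le_of_dvd (Nat.pos_of_ne_zero hΔ) hdvd) (by omega)

theorem two_pow_le_centralBinom (L : ℕ) (hL : 0 < L) : 2 ^ L ≤ Nat.centralBinom L := by
  have h1 := Nat.four_pow_le_two_mul_self_mul_centralBinom L hL
  have h2 : 2 * L ≤ 2 ^ L := by
    clear h1
    induction L with
    | zero => omega
    | succ k ih =>
      rcases Nat.eq_zero_or_pos k with rfl | hk
      · norm_num
      · have := ih hk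
        rw [pow_succ]; omega
  have h3 : (4:ℕ) ^ L = 2 ^ L * 2 ^ L := by
    rw [← mul_pow]; norm_num
  rw [h3] at h1
  have h4 : 2 ^ L * 2 ^ L ≤ 2 ^ L * Nat.centralBinom L :=
    h1.trans (Nat.mul_le_mul_right _ h2)
  exact Nat.le_of_mul_le_mul_left h4 (by positivity)

/-- half the number of moduli that are tried -/
def halfBound (n s t : ℕ) : ℕ := (n + 2) * (s * (1 + t * t * s))

theorem hit_step (s t : ℕ) (φ : NCFormula F n) (hs : φ.size ≤ s) (h : φ.ProdOfSparse t)
    (hne : φ.poly ≠ 0) :
    ∃ r, 1 ≤ r ∧ r ≤ 2 * halfBound n s t ∧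
      FreeAlgebra.lift F (stepMat F n s (s * r + 1) r) φ.poly ≠ 0 := by
  have hne' : φ.toMA ≠ 0 := by
    unfold toMA
    simpa using hne
  have hspos : 0 < s := lt_of_lt_of_le (size_pos φ) hs
  obtain ⟨Δ, hΔ, hle, H⟩ := main_induction t s φ h hne' hs
  have hB : 1 ≤ (n + 2) ^ s := Nat.one_le_pow _ _ (by omega)
  have hbound : (n + 2) ^ s * Δ < Nat.centralBinom (halfBound n s t) := by
    have h1 : (n + 2) ^ s * Δ ≤ (n + 2) ^ (s * (1 + t * t * s)) := by
      calc (n + 2) ^ s * Δ ≤ (n + 2) ^ s * ((n + 2) ^ s) ^ (t * t * s) := by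
            apply Nat.mul_le_mul_left
            exact hle.trans (Nat.pow_le_pow_right hB (Nat.mul_le_mul_left _ hs))
        _ = (n + 2) ^ (s * (1 + t * t * s)) := by
            rw [← pow_mul, ← pow_add]
            congr 1
            ring
    have hE : s * (1 + t * t * s) ≠ 0 := by positivity
    have h2 : (n + 2) ^ (s * (1 + t * t * s)) < (2 ^ (n + 2)) ^ (s * (1 + t * t * s)) :=
      Nat.pow_lt_pow_left Nat.lt_two_pow_self hE
    rw [← pow_mul] at h2
    have h3 := two_pow_le_centralBinom (halfBound n s t) (by unfold halfBound; positivity)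
    unfold halfBound at h3 ⊢
    omega
  obtain ⟨r, hr1, hr2, hr3⟩ := exists_not_dvd _ _ (mul_ne_zero (by positivity) hΔ) hbound
  refine ⟨r, hr1, hr2, ?_⟩
  obtain ⟨k, hk, _, hG⟩ := H r hr3
  rw [lift_eq]
  exact hit_of_G s r k hr1 (hk.trans hs) _ (hG 0 (by omega))


theorem lift_reindex {m m' : Type*} [Fintype m] [Fintype m'] [DecidableEq m] [DecidableEq m']
    (e : m ≃ m') (T : Fin n → Matrix m m F) (f : FreeAlgebra F (Fin n)) :
    FreeAlgebra.lift F (fun i => Matrix.reindex e e (T i)) f =
      Matrix.reindexAlgEquiv F F e (FreeAlgebra.lift F T f) := by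
  have : FreeAlgebra.lift F (fun i => Matrix.reindex e e (T i)) =
      (Matrix.reindexAlgEquiv F F e).toAlgHom.comp (FreeAlgebra.lift F T) := by
    ext i
    simp
  rw [this]
  rfl

theorem family_hits (s t : ℕ) (φ : NCFormula F n) (hs : φ.size ≤ s) (h : φ.ProdOfSparse t)
    (hne : φ.poly ≠ 0) :
    ∃ T ∈ family F n s t, FreeAlgebra.lift F T.2 φ.poly ≠ 0 := by
  obtain ⟨r, hr1, hr2, hr3⟩ := hit_step s t φ hs h hne
  refine ⟨tuple F n s r, ?_, ?_⟩
  · unfold family
    rw [List.mem_map]
    refine ⟨r - 1, ?_, ?_⟩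
    · rw [List.mem_range]
      unfold numModuli
      unfold halfBound at hr2
      omega
    · congr 1
      omega
  · unfold tuple
    simp only
    rw [lift_reindex]
    intro h0
    apply hr3
    exact (Matrix.reindexAlgEquiv F F finProdFinEquiv).injective (by rw [h0, map_zero])

theorem family_dim_le (s t : ℕ) (T : MatTuple F n) (hT : T ∈ family F n s t) :
    T.1 ≤ (s + 1) * (s * numModuli n s t + 1) := by
  unfold family at hT
  rw [List.mem_map] at hT
  obtain ⟨j, hj, rfl⟩ := hT
  rw [List.mem_range] at hj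
  unfold tuple
  simp only
  apply Nat.mul_le_mul_left
  have : s * (j + 1) ≤ s * numModuli n s t := Nat.mul_le_mul_left _ hj
  omega

end Vale.Agent.Lib.P314
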